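import Vale.Agent.N040.Col

open Finset

namespace Vale.Agent.Results.P040.A0Colouring

open Vale.Agent.P040 Vale.Agent.N040

/-- Every drawing of `K_{m,n}` carries a random two-colouring of the class of size `n` such that
two stars cross at least `d_m` times the probability that their centres get the same colour; in an
optimal drawing this is an equality and all colourings that occur are balanced. -/
theorem result :
    ∀ (m n : ℕ) (D : Drawing (completeBipartiteGraph (Fin m) (Fin n))),
      ∃ w ∈ stdSimplex ℝ (Fin n → Bool),
        (∀ b k, b ≠ k → (d m : ℝ) * same w b k ≤ starCross D b k) ∧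
        (D.crossings = d m * d n → 3 ≤ m →
          (∀ b k, b ≠ k → (starCross D b k : ℝ) = d m * same w b k) ∧
          ∀ δ, w δ ≠ 0 → ∀ c : Bool, n / 2 ≤ #{b | δ b = c}) :=
  fun _ _ D => (colouring D).imp fun _ h =>
    ⟨h.1, h.2, fun h1 h2 => optimal D h1 h2 h.1 h.2⟩

end Vale.Agent.Results.P040.A0Colouring
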